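import Mathlib

/-! # P318, helper219: greedy dissociated sets. -/

open Finset

namespace Vale.Agent.P318.H219

variable {G A : Type*} [DecidableEq G] [CancelCommMonoid A]

/-- Running through `Q` in the order of increasing `N` one keeps a dissociated set `D`. -/
lemma exists_dissociated (ψ : G → A) (N : G → ℝ) (Q : Finset G) :
    ∃ D ⊆ Q, Set.InjOn (fun S : Finset G => ∏ i ∈ S, ψ i) (D.powerset : Set (Finset G)) ∧
      ∀ q ∈ Q, ∃ S ⊆ D, ∃ T ⊆ D, (∀ i ∈ S ∪ T, N i ≤ N q) ∧ ψ q * ∏ i ∈ S, ψ i = ∏ i ∈ T, ψ i := by
  classical
  induction Q using Finset.induction_on_max_value N with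
  | empty =>
    refine ⟨∅, subset_rfl, ?_, by simp⟩
    intro S hS T hT _
    simp at hS hT
    rw [hS, hT]
  | insert a s ha hmax ih =>
    obtain ⟨D, hDs, hinj, hrel⟩ := ih
    have haD : a ∉ D := fun h => ha (hDs h)
    by_cases hI : Set.InjOn (fun S : Finset G => ∏ i ∈ S, ψ i) ((insert a D).powerset : Set (Finset G))
    · refine ⟨insert a D, insert_subset_insert a hDs, hI, ?_⟩
      intro q hq
      rcases mem_insert.1 hq with rfl | hq
      · refine ⟨∅, empty_subset _, {q}, by simp, ?_, by simp⟩
        intro i hi
        simp at hi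
        rw [hi]
      · obtain ⟨S, hS, T, hT, h1, h2⟩ := hrel q hq
        exact ⟨S, hS.trans (subset_insert _ _), T, hT.trans (subset_insert _ _), h1, h2⟩
    · refine ⟨D, hDs.trans (subset_insert _ _), hinj, ?_⟩
      intro q hq
      rcases mem_insert.1 hq with hqa | hq
      swap
      · exact hrel q hq
      subst hqa
      -- a coincidence of subset products
      have hrel' : ∃ S ⊆ insert q D, ∃ T ⊆ insert q D, q ∈ S ∧ q ∉ T ∧ ∏ i ∈ S, ψ i = ∏ i ∈ T, ψ i := by
        unfold Set.InjOn at hI
        push Not at hI
        obtain ⟨S, hS, T, hT, hST, hne⟩ := hI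
        rw [coe_powerset, Set.mem_preimage, Set.mem_powerset_iff, coe_subset] at hS hT
        by_cases hqS : q ∈ S <;> by_cases hqT : q ∈ T
        · exfalso
          apply hne
          have e1 : S.erase q = T.erase q := by
            apply hinj
            · simp only [coe_powerset, Set.mem_preimage, Set.mem_powerset_iff, coe_subset]
              exact subset_insert_iff.1 hS
            · simp only [coe_powerset, Set.mem_preimage, Set.mem_powerset_iff, coe_subset]
              exact subset_insert_iff.1 hT
            · have hST' : ∏ i ∈ S, ψ i = ∏ i ∈ T, ψ i := hST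
              rw [← mul_prod_erase S ψ hqS, ← mul_prod_erase T ψ hqT] at hST'
              exact mul_left_cancel hST'
          rw [← insert_erase hqS, ← insert_erase hqT, e1]
        · exact ⟨S, hS, T, hT, hqS, hqT, hST⟩
        · exact ⟨T, hT, S, hS, hqT, hqS, hST.symm⟩
        · exfalso
          apply hne
          apply hinj
          · simp only [coe_powerset, Set.mem_preimage, Set.mem_powerset_iff, coe_subset]
            exact (subset_insert_iff_of_notMem hqS).1 hS
          · simp only [coe_powerset, Set.mem_preimage, Set.mem_powerset_iff, coe_subset]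
            exact (subset_insert_iff_of_notMem hqT).1 hT
          · exact hST
      obtain ⟨S, hS, T, hT, hqS, hqT, hST⟩ := hrel'
      refine ⟨S.erase q, subset_insert_iff.1 hS, T, (subset_insert_iff_of_notMem hqT).1 hT, ?_, ?_⟩
      · intro i hi
        have hiD : i ∈ D := by
          rcases mem_union.1 hi with h | h
          · exact subset_insert_iff.1 hS h
          · exact (subset_insert_iff_of_notMem hqT).1 hT h
        exact hmax i (hDs hiD)
      · rw [mul_prod_erase S ψ hqS, hST]

/-- cardinality of a dissociated set: if all subset products are values of `ψ` and `ψ` factors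
through `F : G → V` then `2^|D| ≤ |V|`. -/
lemma card_dissociated {V : Type*} [Fintype V] (ψ : G → A) (F : G → V)
    (hF : ∀ g h, F g = F h → ψ g = ψ h) (D : Finset G)
    (hval : ∀ S ⊆ D, ∃ g, ψ g = ∏ i ∈ S, ψ i)
    (hinj : Set.InjOn (fun S : Finset G => ∏ i ∈ S, ψ i) (D.powerset : Set (Finset G))) :
    2 ^ D.card ≤ Fintype.card V := by
  classical
  have : Nonempty G := ⟨(hval ∅ (empty_subset _)).choose⟩
  choose! r hr using hval
  rw [← card_powerset, ← Finset.card_univ]
  apply Finset.card_le_card_of_injOn (fun S => F (r S)) (fun _ _ => by simp)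
  intro S hS T hT h
  apply hinj hS hT
  have hS' : S ⊆ D := by simpa using hS
  have hT' : T ⊆ D := by simpa using hT
  show ∏ i ∈ S, ψ i = ∏ i ∈ T, ψ i
  rw [← hr S hS', ← hr T hT']
  exact hF _ _ h

end Vale.Agent.P318.H219
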