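import Vale.Agent.P318.H219.Tail
import Vale.Agent.P318.H219.Greedy

/-! # P318, helper219: the end game.

A finite family of characters `z χ` of a group `G` with weights `b χ ≥ 0` whose variance
`∑ b (1 - Re z)` is at most `K N`, `N` subadditive.  At least half of the weight satisfies
`∑ b' ‖1 - z‖ ≤ (B + 2πKJ) N` on `Q` with `2^J ≥ 8πKs²/B`, `s = log₂ |V|`. -/

open Finset

namespace Vale.Agent.P318.H219

lemma norm_one_sub_mul_le (u v : ℂ) (hu : ‖u‖ = 1) : ‖1 - u * v‖ ≤ ‖1 - u‖ + ‖1 - v‖ := by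
  have : 1 - u * v = (1 - u) + u * (1 - v) := by ring
  rw [this]
  calc _ ≤ ‖1 - u‖ + ‖u * (1 - v)‖ := norm_add_le _ _
    _ = _ := by rw [norm_mul, hu, one_mul]

lemma norm_one_sub_prod_le {ι : Type*} (S : Finset ι) (u : ι → ℂ) (hu : ∀ i, ‖u i‖ = 1) :
    ‖1 - ∏ i ∈ S, u i‖ ≤ ∑ i ∈ S, ‖1 - u i‖ := by
  classical
  induction S using Finset.induction_on with
  | empty => simp
  | insert a S ha ih =>
    rw [prod_insert ha, sum_insert ha]
    exact (norm_one_sub_mul_le _ _ (hu a)).trans (by linarith)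

lemma norm_one_sub_sq (u : ℂ) (hu : ‖u‖ = 1) : ‖1 - u‖ ^ 2 = 2 * (1 - u.re) := by
  have h1 : u.re * u.re + u.im * u.im = 1 := by
    have := Complex.sq_norm u
    rw [hu, Complex.normSq_apply] at this
    linarith
  rw [Complex.sq_norm, Complex.normSq_apply]
  simp only [Complex.sub_re, Complex.one_re, Complex.sub_im, Complex.one_im]
  nlinarith

theorem endgame {X G V : Type*} [Fintype X] [Group G] [Fintype V]
    (z : X → G → ℂ) (hz1 : ∀ χ g, ‖z χ g‖ = 1) (hmul : ∀ χ g h, z χ (g*h) = z χ g * z χ h)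
    (b : X → ℝ) (hb : ∀ χ, 0 ≤ b χ) (N : G → ℝ) (hN0 : ∀ g, 0 ≤ N g)
    (hN : ∀ g h, N (g*h) ≤ N g + N h) (K : ℝ) (hK : 0 < K)
    (hbN : ∀ g, ∑ χ, b χ * (1 - (z χ g).re) ≤ K * N g)
    (F : G → V) (hF : ∀ g h, F g = F h → ∀ χ, 0 < b χ → z χ g = z χ h)
    (s : ℕ) (hs : Fintype.card V < 2 ^ (s + 1))
    (J : ℕ) (hJ : 8 * Real.pi * K * (s:ℝ) ^ 2 ≤ 2 ^ J * ∑ χ, b χ)
    (Q : Finset G) :
    ∃ b' : X → ℝ, (∀ χ, 0 ≤ b' χ) ∧ (∀ χ, b' χ ≤ b χ) ∧ (∑ χ, b χ) / 2 ≤ ∑ χ, b' χ ∧
      ∀ q ∈ Q, ∑ χ, b' χ * ‖1 - z χ q‖ ≤ (∑ χ, b χ + 2 * Real.pi * K * J) * N q := by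
  classical
  have hpi := Real.pi_pos
  set B := ∑ χ, b χ with hB
  have hB0 : 0 ≤ B := sum_nonneg fun χ _ => hb χ
  -- zero weights
  have hzero : ∀ g, N g = 0 → ∀ χ, 0 < b χ → z χ g = 1 := by
    intro g hg χ hχ
    have h1 := hbN g
    rw [hg, mul_zero] at h1
    have h2 : b χ * (1 - (z χ g).re) ≤ 0 :=
      (single_le_sum (f := fun χ => b χ * (1 - (z χ g).re))
        (fun j _ => mul_nonneg (hb j) (one_sub_re_nonneg _ (hz1 _ _))) (mem_univ χ)).trans h1
    have h3 : 1 - (z χ g).re ≤ 0 := by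
      by_contra hcon
      push Not at hcon
      nlinarith
    have h4 : ‖1 - z χ g‖ ^ 2 ≤ 0 := by
      rw [norm_one_sub_sq _ (hz1 _ _)]; linarith
    have h5 : ‖1 - z χ g‖ = 0 := by
      have := norm_nonneg (1 - z χ g); nlinarith
    rw [norm_eq_zero, sub_eq_zero] at h5
    exact h5.symm
  have hne : ∀ χ g, z χ g ≠ 0 := by
    intro χ g h
    have := hz1 χ g
    rw [h] at this
    simp at this
  have hone : ∀ χ, z χ 1 = 1 := by
    intro χ
    have h1 := hmul χ 1 1
    rw [mul_one] at h1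
    exact mul_left_cancel₀ (hne χ 1) (by rw [← h1, mul_one])
  -- the homomorphism into the torus
  set ψ : G → ({χ : X // 0 < b χ} → ℂˣ) := fun g χ => Units.mk0 (z χ g) (hne χ g) with hψ
  have hψmul : ∀ g h, ψ (g * h) = ψ g * ψ h := by
    intro g h
    funext χ
    apply Units.ext
    simp [hψ, hmul]
  have hψone : ψ 1 = 1 := by
    funext χ
    apply Units.ext
    simp [hψ, hone]
  obtain ⟨D, hDQ, hinj, hrel⟩ := exists_dissociated ψ N Q
  have hval : ∀ S ⊆ D, ∃ g, ψ g = ∏ i ∈ S, ψ i := by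
    intro S _
    induction S using Finset.induction_on with
    | empty => exact ⟨1, by simpa using hψone⟩
    | insert a S ha ih =>
      obtain ⟨g, hg⟩ := ih (by intro x hx; exact ‹insert a S ⊆ D› (mem_insert_of_mem hx))
      exact ⟨a * g, by rw [prod_insert ha, hψmul, hg]⟩
  have hcard : 2 ^ D.card ≤ Fintype.card V := by
    apply card_dissociated ψ F _ D hval hinj
    intro g h hgh
    funext χ
    apply Units.ext
    simpa [hψ] using hF g h hgh χ χ.2
  have hDs : D.card ≤ s := by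
    by_contra hcon
    push Not at hcon
    have : 2 ^ (s + 1) ≤ 2 ^ D.card := Nat.pow_le_pow_right (by norm_num) hcon
    omega
  have hDs' : (D.card : ℝ) ≤ s := by exact_mod_cast hDs
  -- relation gives a bound
  have hreln : ∀ q ∈ Q, ∀ χ, 0 < b χ → ∀ M : ℝ, 0 ≤ M →
      (∀ i ∈ D, N i ≤ N q → ‖1 - z χ i‖ ≤ M) → ‖1 - z χ q‖ ≤ 2 * s * M := by
    intro q hq χ hχ M hM hi
    obtain ⟨S, hS, T, hT, hST, hprod⟩ := hrel q hq
    have e : z χ q * ∏ i ∈ S, z χ i = ∏ i ∈ T, z χ i := by
      have := congrFun hprod ⟨χ, hχ⟩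
      have := congrArg Units.val this
      simpa [hψ, Finset.prod_apply, Units.coe_prod] using this
    have hnS : ‖∏ i ∈ S, z χ i‖ = 1 := by
      rw [norm_prod]; exact prod_eq_one fun i _ => hz1 χ i
    have h1 : ‖1 - z χ q‖ = ‖∏ i ∈ S, z χ i - ∏ i ∈ T, z χ i‖ := by
      rw [← e, ← one_sub_mul, norm_mul, hnS, mul_one]
    have h2 : ‖∏ i ∈ S, z χ i - ∏ i ∈ T, z χ i‖ ≤ ‖1 - ∏ i ∈ S, z χ i‖ + ‖1 - ∏ i ∈ T, z χ i‖ := by
      have : ∏ i ∈ S, z χ i - ∏ i ∈ T, z χ i = (1 - ∏ i ∈ T, z χ i) - (1 - ∏ i ∈ S, z χ i) := by ring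
      rw [this]
      exact (norm_sub_le _ _).trans (by linarith)
    have h3 : ∀ S' ⊆ D, (∀ i ∈ S', N i ≤ N q) → ‖1 - ∏ i ∈ S', z χ i‖ ≤ s * M := by
      intro S' hS' hN'
      calc _ ≤ ∑ i ∈ S', ‖1 - z χ i‖ := norm_one_sub_prod_le S' _ (hz1 χ)
        _ ≤ ∑ i ∈ S', M := sum_le_sum fun i hi' => hi i (hS' hi') (hN' i hi')
        _ = S'.card * M := by rw [sum_const, nsmul_eq_mul]
        _ ≤ D.card * M := by
            apply mul_le_mul_of_nonneg_right _ hM
            exact_mod_cast card_le_card hS'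
        _ ≤ _ := mul_le_mul_of_nonneg_right hDs' hM
    have h4 := h3 S hS (fun i hi' => hST i (mem_union_left _ hi'))
    have h5 := h3 T hT (fun i hi' => hST i (mem_union_right _ hi'))
    rw [h1]
    linarith
  -- thresholds
  rcases hB0.eq_or_lt with hB00 | hBpos
  · -- B = 0
    refine ⟨fun _ => 0, fun _ => le_rfl, hb, ?_, ?_⟩
    · rw [← hB00]; simp
    · intro q _
      simp only [zero_mul, sum_const_zero]
      have := hN0 q
      positivity
  set τ : G → ℝ := fun i => 4 * Real.pi * K * s / B * N i with hτ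
  set good : X → Prop := fun χ => ∀ i ∈ D, ‖1 - z χ i‖ ≤ τ i with hgood
  refine ⟨fun χ => if good χ then b χ else 0, ?_, ?_, ?_, ?_⟩
  · intro χ; dsimp only; split_ifs
    · exact hb χ
    · exact le_rfl
  · intro χ; dsimp only; split_ifs
    · exact le_rfl
    · exact hb χ
  · -- mass of the good characters
    have hbad : ∀ i ∈ D, ∑ χ with τ i < ‖1 - z χ i‖, b χ ≤ B / (2 * s) := by
      intro i hiD
      have hs0 : (0:ℝ) < s := by
        have : 0 < D.card := card_pos.2 ⟨i, hiD⟩
        have : 0 < s := by omega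
        exact_mod_cast this
      rcases (hN0 i).eq_or_lt with h0 | hpos
      · have : ∑ χ with τ i < ‖1 - z χ i‖, b χ ≤ 0 := by
          apply sum_nonpos
          intro χ hχ
          rw [mem_filter] at hχ
          by_contra hcon
          push Not at hcon
          have h1 := hzero i h0.symm χ hcon
          have h2 := hχ.2
          rw [h1] at h2
          simp [hτ, ← h0] at h2
        exact this.trans (by positivity)
      · have hτi : 0 < τ i := by simp only [hτ]; positivity
        have h1 := tail z hz1 hmul b hb N hN K hK.le hbN i hpos.le (τ i) hτi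
        rw [← mul_le_mul_iff_right₀ hτi]
        refine h1.trans (le_of_eq ?_)
        simp only [hτ]
        field_simp
        ring
    have h1 : ∑ χ, b χ ≤ ∑ χ, (if good χ then b χ else 0) + ∑ i ∈ D, ∑ χ with τ i < ‖1 - z χ i‖, b χ := by
      have : ∑ i ∈ D, ∑ χ with τ i < ‖1 - z χ i‖, b χ = ∑ χ, ∑ i ∈ D, if τ i < ‖1 - z χ i‖ then b χ else 0 := by
        rw [sum_comm]
        apply sum_congr rfl
        intro i _
        rw [sum_filter]
      rw [this, ← sum_add_distrib]
      apply sum_le_sum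
      intro χ _
      by_cases hg : good χ
      · rw [if_pos hg]
        have : 0 ≤ ∑ i ∈ D, if τ i < ‖1 - z χ i‖ then b χ else 0 := by
          apply sum_nonneg
          intro i _
          split_ifs
          · exact hb χ
          · exact le_rfl
        linarith
      · rw [if_neg hg, zero_add]
        have hg' : ∃ i ∈ D, τ i < ‖1 - z χ i‖ := by
          simp only [hgood] at hg
          push Not at hg
          exact hg
        obtain ⟨i, hi, hlt⟩ := hg'
        calc b χ = if τ i < ‖1 - z χ i‖ then b χ else 0 := by rw [if_pos hlt]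
          _ ≤ _ := single_le_sum (f := fun i => if τ i < ‖1 - z χ i‖ then b χ else 0)
            (fun j _ => by split_ifs; exacts [hb χ, le_rfl]) hi
    have h2 : ∑ i ∈ D, ∑ χ with τ i < ‖1 - z χ i‖, b χ ≤ B / 2 := by
      calc _ ≤ ∑ i ∈ D, B / (2 * s) := sum_le_sum hbad
        _ = D.card * (B / (2 * s)) := by rw [sum_const, nsmul_eq_mul]
        _ ≤ s * (B / (2 * s)) := mul_le_mul_of_nonneg_right hDs' (by positivity)
        _ ≤ B / 2 := by
          rcases Nat.eq_zero_or_pos s with h0 | h0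
          · rw [h0]; simp; positivity
          · have : (0:ℝ) < s := by exact_mod_cast h0
            apply le_of_eq; field_simp
    linarith
  · intro q hq
    -- cap
    have hcap : ∀ χ, good χ → 0 < b χ → ‖1 - z χ q‖ ≤ 2 ^ J * N q := by
      intro χ hχ hbχ
      have h1 := hreln q hq χ hbχ (4 * Real.pi * K * s / B * N q)
        (mul_nonneg (by positivity) (hN0 q)) (by
          intro i hi hNi
          refine (hχ i hi).trans ?_
          simp only [hτ]
          exact mul_le_mul_of_nonneg_left hNi (by positivity))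
      refine h1.trans ?_
      have h2 : 2 * (s:ℝ) * (4 * Real.pi * K * s / B * N q) = (8 * Real.pi * K * (s:ℝ)^2 / B) * N q := by
        ring
      rw [h2]
      apply mul_le_mul_of_nonneg_right _ (hN0 q)
      rw [div_le_iff₀ hBpos]
      exact hJ
    have hpt : ∀ χ, (if good χ then b χ else 0) * ‖1 - z χ q‖ ≤
        b χ * N q + ∑ j ∈ range J, (2:ℝ)^j * N q * (if (2:ℝ)^j * N q < ‖1 - z χ q‖ then b χ else 0) := by
      intro χ
      by_cases hg : good χ
      · rw [if_pos hg]
        rcases (hb χ).eq_or_lt with h0 | hpos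
        · rw [← h0]; simp
        · have := dyadic ‖1 - z χ q‖ (N q) (hN0 q) J (hcap χ hg hpos)
          calc b χ * ‖1 - z χ q‖ ≤ b χ * (N q + ∑ j ∈ range J, (2:ℝ)^j * N q *
                (if (2:ℝ)^j * N q < ‖1 - z χ q‖ then 1 else 0)) := mul_le_mul_of_nonneg_left this hpos.le
            _ = _ := by
              rw [mul_add, mul_sum]
              congr 1
              apply sum_congr rfl
              intro j _
              split_ifs <;> ring
      · rw [if_neg hg, zero_mul]
        apply add_nonneg (mul_nonneg (hb χ) (hN0 q))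
        apply sum_nonneg
        intro j _
        apply mul_nonneg (mul_nonneg (by positivity) (hN0 q))
        split_ifs
        · exact hb χ
        · exact le_rfl
    calc _ ≤ ∑ χ, (b χ * N q + ∑ j ∈ range J, (2:ℝ)^j * N q *
            (if (2:ℝ)^j * N q < ‖1 - z χ q‖ then b χ else 0)) := sum_le_sum fun χ _ => hpt χ
      _ = B * N q + ∑ j ∈ range J, (2:ℝ)^j * N q * ∑ χ with (2:ℝ)^j * N q < ‖1 - z χ q‖, b χ := by
          rw [sum_add_distrib, ← sum_mul, sum_comm]
          congr 1
          apply sum_congr rfl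
          intro j _
          rw [← mul_sum, sum_filter]
      _ ≤ B * N q + ∑ j ∈ range J, 2 * Real.pi * K * N q := by
          apply add_le_add le_rfl
          apply sum_le_sum
          intro j _
          rcases (hN0 q).eq_or_lt with h0 | hpos
          · rw [← h0]; simp
          · exact tail z hz1 hmul b hb N hN K hK.le hbN q hpos.le _ (by positivity)
      _ = _ := by rw [sum_const, card_range, nsmul_eq_mul]; ring

end Vale.Agent.P318.H219
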