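import Mathlib

/-! # P318, helper219: tails of character measures dominated by a subadditive function. -/

open Finset

namespace Vale.Agent.P318.H219

/-- if `z` is on the unit circle and `‖1 - z‖ > τ` then for some `i` with `2^i τ < π`
the power `z^(2^i)` has nonpositive real part. -/
lemma exists_doubling (z : ℂ) (hz : ‖z‖ = 1) (τ : ℝ) (hτ : 0 < τ) (h : τ < ‖1 - z‖) :
    ∃ i : ℕ, (2:ℝ)^i * τ < Real.pi ∧ 1 ≤ 1 - (z^(2^i)).re := by
  set θ := Complex.arg z with hθ
  have hzθ : z = Complex.exp (θ * Complex.I) := by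
    have := Complex.norm_mul_exp_arg_mul_I z
    rw [hz] at this
    simpa using this.symm
  have hle : ‖1 - z‖ ≤ |θ| := by
    have := Real.norm_exp_I_mul_ofReal_sub_one_le (x := θ)
    rw [norm_sub_rev, hzθ, mul_comm (θ:ℂ)]
    simpa using this
  have hpos : 0 < |θ| := lt_of_lt_of_le (hτ.trans h) hle
  have hpi : |θ| ≤ Real.pi := Complex.abs_arg_le_pi z
  have hex : ∃ i : ℕ, Real.pi / 2 ≤ (2:ℝ)^i * |θ| := by
    obtain ⟨i, hi⟩ := pow_unbounded_of_one_lt (Real.pi / 2 / |θ|) (by norm_num : (1:ℝ) < 2)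
    refine ⟨i, ?_⟩
    rw [div_lt_iff₀ hpos] at hi
    exact hi.le
  classical
  set i := Nat.find hex with hi
  have h1 : Real.pi / 2 ≤ (2:ℝ)^i * |θ| := Nat.find_spec hex
  have h2 : (2:ℝ)^i * |θ| ≤ Real.pi := by
    rcases Nat.eq_zero_or_pos i with h0 | h0
    · rw [h0]; simpa using hpi
    · have := Nat.find_min hex (m := i - 1) (by omega)
      rw [not_le] at this
      have e : (2:ℝ)^i = 2 * (2:ℝ)^(i-1) := by
        rw [← pow_succ']; congr 1; omega
      rw [e]; nlinarith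
  refine ⟨i, ?_, ?_⟩
  · calc (2:ℝ)^i * τ < (2:ℝ)^i * |θ| := by
          apply mul_lt_mul_of_pos_left (h.trans_le hle); positivity
      _ ≤ _ := h2
  · have e : (z^(2^i)).re = Real.cos ((2:ℝ)^i * |θ|) := by
      have : z^(2^i) = Complex.exp (((2:ℝ)^i * θ : ℝ) * Complex.I) := by
        rw [hzθ, ← Complex.exp_nat_mul]; congr 1; push_cast; ring
      rw [this, Complex.exp_ofReal_mul_I_re]
      rw [← Real.cos_abs, abs_mul, abs_of_pos (by positivity : (0:ℝ) < 2^i)]
    have : Real.cos ((2:ℝ)^i * |θ|) ≤ 0 :=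
      Real.cos_nonpos_of_pi_div_two_le_of_le h1 (by linarith [Real.pi_pos])
    rw [e]; linarith

section

variable {X G : Type*} [Fintype X] [Group G]

/-- subadditivity gives `N (g^(2^i)) ≤ 2^i N g`. -/
lemma N_pow_le (N : G → ℝ) (hN : ∀ g h, N (g * h) ≤ N g + N h) (g : G) (i : ℕ) :
    N (g^(2^i)) ≤ (2:ℝ)^i * N g := by
  induction i with
  | zero => simp
  | succ i ih =>
    have : g^(2^(i+1)) = g^(2^i) * g^(2^i) := by rw [← pow_add]; congr 1; ring
    rw [this]
    calc _ ≤ N (g^(2^i)) + N (g^(2^i)) := hN _ _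
      _ ≤ _ := by rw [pow_succ]; linarith

lemma one_sub_re_nonneg (z : ℂ) (hz : ‖z‖ = 1) : 0 ≤ 1 - z.re := by
  have := Complex.re_le_norm z
  linarith

/-- The tail bound. -/
lemma tail (z : X → G → ℂ) (hz1 : ∀ χ g, ‖z χ g‖ = 1)
    (hmul : ∀ χ g h, z χ (g*h) = z χ g * z χ h)
    (b : X → ℝ) (hb : ∀ χ, 0 ≤ b χ) (N : G → ℝ)
    (hN : ∀ g h, N (g*h) ≤ N g + N h) (K : ℝ) (hK : 0 ≤ K)
    (hbN : ∀ g, ∑ χ, b χ * (1 - (z χ g).re) ≤ K * N g) (g : G) (hNg : 0 ≤ N g) (τ : ℝ) (hτ : 0 < τ) :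
    τ * ∑ χ with τ < ‖1 - z χ g‖, b χ ≤ 2 * Real.pi * K * N g := by
  classical
  have hpow : ∀ χ g (n : ℕ), z χ (g^n) = (z χ g)^n := by
    intro χ g n
    induction n with
    | zero =>
      have h1 := hmul χ 1 1
      rw [mul_one] at h1
      have h0 : z χ 1 ≠ 0 := by
        intro h; have := hz1 χ 1; rw [h] at this; simp at this
      have : z χ 1 = 1 := by
        have := mul_left_cancel₀ h0 (show z χ 1 * z χ 1 = z χ 1 * 1 by rw [← h1, mul_one])
        exact this
      simpa using this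
    | succ n ih => rw [pow_succ, pow_succ, hmul, ih]
  have hex : ∃ n : ℕ, Real.pi ≤ (2:ℝ)^n * τ := by
    obtain ⟨i, hi⟩ := pow_unbounded_of_one_lt (Real.pi / τ) (by norm_num : (1:ℝ) < 2)
    refine ⟨i, ?_⟩
    rw [div_lt_iff₀ hτ] at hi
    exact hi.le
  set n := Nat.find hex with hn
  have hn1 : Real.pi ≤ (2:ℝ)^n * τ := Nat.find_spec hex
  have hlt : ∀ i : ℕ, (2:ℝ)^i * τ < Real.pi → i < n := by
    intro i hi
    by_contra hcon
    push Not at hcon
    have : (2:ℝ)^n ≤ (2:ℝ)^i := pow_le_pow_right₀ (by norm_num) hcon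
    nlinarith
  have key : ∑ χ with τ < ‖1 - z χ g‖, b χ ≤ ∑ i ∈ range n, ∑ χ, b χ * (1 - (z χ (g^(2^i))).re) := by
    rw [sum_comm, sum_filter]
    apply sum_le_sum
    intro χ _
    split_ifs with h
    · obtain ⟨i, hi1, hi2⟩ := exists_doubling (z χ g) (hz1 χ g) τ hτ h
      have hmem : i ∈ range n := mem_range.2 (hlt i hi1)
      calc b χ = b χ * 1 := (mul_one _).symm
        _ ≤ b χ * (1 - (z χ (g^(2^i))).re) := by
            apply mul_le_mul_of_nonneg_left _ (hb χ); rw [hpow]; exact hi2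
        _ ≤ _ := single_le_sum (f := fun i => b χ * (1 - (z χ (g^(2^i))).re))
            (fun j _ => mul_nonneg (hb χ) (one_sub_re_nonneg _ (hz1 _ _))) hmem
    · exact sum_nonneg (fun j _ => mul_nonneg (hb χ) (one_sub_re_nonneg _ (hz1 _ _)))
  have key2 : ∑ i ∈ range n, ∑ χ, b χ * (1 - (z χ (g^(2^i))).re) ≤ ∑ i ∈ range n, (2:ℝ)^i * (K * N g) := by
    apply sum_le_sum
    intro i _
    calc _ ≤ K * N (g^(2^i)) := hbN _
      _ ≤ K * ((2:ℝ)^i * N g) := mul_le_mul_of_nonneg_left (N_pow_le N hN g i) hK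
      _ = _ := by ring
  rw [← sum_mul] at key2
  have hgeo : ∑ i ∈ range n, (2:ℝ)^i = 2^n - 1 := by
    have := geom_sum_eq (by norm_num : (2:ℝ) ≠ 1) n
    rw [this]; norm_num
  rw [hgeo] at key2
  have hKN : 0 ≤ K * N g := mul_nonneg hK hNg
  rcases Nat.eq_zero_or_pos n with h0 | h0
  · rw [h0] at key2
    have : ∑ χ with τ < ‖1 - z χ g‖, b χ ≤ 0 := by
      refine (key.trans ?_)
      rw [h0]; simp
    have h3 : 0 ≤ 2 * Real.pi * K * N g := by
      have := Real.pi_pos; nlinarith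
    nlinarith
  · have h3 : (2:ℝ)^n * τ < 2 * Real.pi := by
      have := Nat.find_min hex (m := n - 1) (by omega)
      rw [not_le] at this
      have e : (2:ℝ)^n = 2 * (2:ℝ)^(n-1) := by
        rw [← pow_succ']; congr 1; omega
      rw [e]; nlinarith
    calc τ * ∑ χ with τ < ‖1 - z χ g‖, b χ ≤ τ * ((2^n - 1) * (K * N g)) := by
          apply mul_le_mul_of_nonneg_left (key.trans key2) hτ.le
      _ ≤ τ * (2^n * (K * N g)) := by
          apply mul_le_mul_of_nonneg_left _ hτ.le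
          nlinarith
      _ = (2^n * τ) * (K * N g) := by ring
      _ ≤ 2 * Real.pi * (K * N g) := mul_le_mul_of_nonneg_right h3.le hKN
      _ = _ := by ring

/-- dyadic decomposition -/
lemma dyadic (x N : ℝ) (hN : 0 ≤ N) (J : ℕ) (hx : x ≤ 2^J * N) :
    x ≤ N + ∑ j ∈ range J, (2:ℝ)^j * N * (if (2:ℝ)^j * N < x then 1 else 0) := by
  induction J generalizing x with
  | zero => simpa using hx
  | succ J ih =>
    rw [sum_range_succ]
    by_cases h : (2:ℝ)^J * N < x
    · rw [if_pos h]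
      -- all smaller ones are also active
      have hall : ∀ j ∈ range J, (2:ℝ)^j * N * (if (2:ℝ)^j * N < x then 1 else 0) = (2:ℝ)^j * N := by
        intro j hj
        have : (2:ℝ)^j ≤ 2^J := pow_le_pow_right₀ (by norm_num) (mem_range.1 hj).le
        rw [if_pos (by nlinarith), mul_one]
      rw [sum_congr rfl hall, ← sum_mul]
      have hgeo : ∑ i ∈ range J, (2:ℝ)^i = 2^J - 1 := by
        have := geom_sum_eq (by norm_num : (2:ℝ) ≠ 1) J
        rw [this]; norm_num
      rw [hgeo, pow_succ] at *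
      nlinarith
    · rw [if_neg h]
      push Not at h
      have := ih x h
      linarith

end

end Vale.Agent.P318.H219
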